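import Vale.Agent.P119.Bdl.B2

/-! # The GNZ (Mecke) identity for the grand-canonical law with exclusion

Configurations (worlds) are finite subsets of the one-particle phase space `Ph`; a labelled
configuration `Z : Fin N → Ph` has world `world Z`. -/

open MeasureTheory Filter Topology Set
open scoped ENNReal

namespace Vale.Agent.P119.GNZ

open Classical in
/-- The world (set of initial data) of a labelled configuration. -/
noncomputable def world {N : ℕ} (Z : Fin N → Ph) : Finset Ph := Finset.univ.image Z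

theorem mem_world {N : ℕ} {Z : Fin N → Ph} {p : Ph} : p ∈ world Z ↔ ∃ i, Z i = p := by
  classical
  simp [world]

/-- The labelled configurations `Y` all of whose particles are at distance `> ε` from those
of `z`. -/
def compat (ε : ℝ) {n M : ℕ} (z : Fin n → Ph) : Set (Fin M → Ph) :=
  {Y | ∀ i j, ε < ‖(z i).1 - (Y j).1‖}

theorem measurableSet_compat_prod (ε : ℝ) (n M : ℕ) :
    MeasurableSet {p : (Fin n → Ph) × (Fin M → Ph) | p.2 ∈ compat ε p.1} := by
  have : {p : (Fin n → Ph) × (Fin M → Ph) | p.2 ∈ compat ε p.1} =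
      ⋂ i, ⋂ j, {p : (Fin n → Ph) × (Fin M → Ph) | ε < ‖(p.1 i).1 - (p.2 j).1‖} := by
    ext p
    simp [compat]
  rw [this]
  exact MeasurableSet.iInter fun i => MeasurableSet.iInter fun j =>
    measurableSet_lt measurable_const (by fun_prop)

theorem measurableSet_compat (ε : ℝ) {n M : ℕ} (z : Fin n → Ph) :
    MeasurableSet (compat ε z : Set (Fin M → Ph)) :=
  measurable_prodMk_left (measurableSet_compat_prod ε n M)

/-! ### Splitting off the labels of an embedding -/

/-- An equivalence `Fin n ⊕ Fin M ≃ Fin (M + n)` that extends a given embedding. -/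
theorem exists_sumEquiv {n M : ℕ} (σ : Fin n ↪ Fin (M + n)) :
    ∃ e : Fin n ⊕ Fin M ≃ Fin (M + n), ∀ k, e (Sum.inl k) = σ k := by
  classical
  have hc : Fintype.card ((range σ)ᶜ : Set (Fin (M + n))) = M := by
    rw [Fintype.card_compl_set, Fintype.card_fin, Set.card_range_of_injective σ.injective,
      Fintype.card_fin]
    omega
  let e2 : Fin M ≃ ((range σ)ᶜ : Set (Fin (M + n))) := (Fintype.equivFinOfCardEq hc).symm
  refine ⟨(Equiv.sumCongr (Equiv.ofInjective σ σ.injective) e2).trans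
    (Equiv.Set.sumCompl (range σ)), fun k => ?_⟩
  simp

/-- The labelled configuration made of `z` and `Y`. -/
def join {n M : ℕ} (e : Fin n ⊕ Fin M ≃ Fin (M + n)) (z : Fin n → Ph) (Y : Fin M → Ph) :
    Fin (M + n) → Ph := fun i => Sum.elim z Y (e.symm i)

theorem join_inl {n M : ℕ} (e : Fin n ⊕ Fin M ≃ Fin (M + n)) (z : Fin n → Ph) (Y : Fin M → Ph)
    (k : Fin n) : join e z Y (e (Sum.inl k)) = z k := by simp [join]

theorem join_inr {n M : ℕ} (e : Fin n ⊕ Fin M ≃ Fin (M + n)) (z : Fin n → Ph) (Y : Fin M → Ph)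
    (k : Fin M) : join e z Y (e (Sum.inr k)) = Y k := by simp [join]

theorem lintegral_join (ν : Measure Ph) [SigmaFinite ν] {n M : ℕ}
    (e : Fin n ⊕ Fin M ≃ Fin (M + n)) (H : (Fin (M + n) → Ph) → ℝ≥0∞) :
    ∫⁻ Z, H Z ∂(Measure.pi fun _ : Fin (M + n) => ν) =
      ∫⁻ p : (Fin n → Ph) × (Fin M → Ph), H (join e p.1 p.2)
        ∂((Measure.pi fun _ : Fin n => ν).prod (Measure.pi fun _ : Fin M => ν)) := by
  have h1 := measurePreserving_piCongrLeft (α := fun _ : Fin (M + n) => Ph)
    (fun _ : Fin (M + n) => ν) e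
  have h2 := measurePreserving_sumPiEquivProdPi_symm (X := fun _ : Fin n ⊕ Fin M => Ph)
    (fun _ : Fin n ⊕ Fin M => ν)
  rw [← h1.lintegral_comp_emb (MeasurableEquiv.measurableEmbedding _),
    ← h2.lintegral_comp_emb (MeasurableEquiv.measurableEmbedding _)]
  refine lintegral_congr fun p => ?_
  congr 1
  funext i
  obtain ⟨k, rfl⟩ := e.surjective i
  rw [MeasurableEquiv.coe_piCongrLeft]
  rw [Equiv.piCongrLeft_apply_apply (fun _ : Fin (M + n) => Ph) e]
  rcases k with k | k
  · rw [join_inl]; rfl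
  · rw [join_inr]; rfl

theorem join_mem_excl {n M : ℕ} (e : Fin n ⊕ Fin M ≃ Fin (M + n)) {ε : ℝ} (z : Fin n → Ph)
    (Y : Fin M → Ph) : join e z Y ∈ excl ε (M + n) ↔
      z ∈ excl ε n ∧ Y ∈ excl ε M ∧ Y ∈ compat ε z := by
  constructor
  · intro h
    refine ⟨fun i j hij => ?_, fun i j hij => ?_, fun i j => ?_⟩
    · have := h (e (Sum.inl i)) (e (Sum.inl j)) (by simpa using hij)
      rwa [join_inl, join_inl] at this
    · have := h (e (Sum.inr i)) (e (Sum.inr j)) (by simpa using hij)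
      rwa [join_inr, join_inr] at this
    · have := h (e (Sum.inl i)) (e (Sum.inr j)) (by simp)
      rwa [join_inl, join_inr] at this
  · rintro ⟨h1, h2, h3⟩ i j hij
    obtain ⟨a, rfl⟩ := e.surjective i
    obtain ⟨b, rfl⟩ := e.surjective j
    rcases a with a | a <;> rcases b with b | b
    · rw [join_inl, join_inl]
      exact h1 a b (fun h => hij (by rw [h]))
    · rw [join_inl, join_inr]
      exact h3 a b
    · rw [join_inl, join_inr, norm_sub_rev]
      exact h3 b a
    · rw [join_inr, join_inr]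
      exact h2 a b (fun h => hij (by rw [h]))

open Classical in
theorem world_join_sdiff {n M : ℕ} (e : Fin n ⊕ Fin M ≃ Fin (M + n)) {ε : ℝ} (hε : 0 ≤ ε)
    (z : Fin n → Ph) (Y : Fin M → Ph) (h : Y ∈ compat ε z) :
    world (join e z Y) \ world z = world Y := by
  ext p
  rw [Finset.mem_sdiff, mem_world, mem_world, mem_world]
  constructor
  · rintro ⟨⟨i, hi⟩, hn⟩
    obtain ⟨k, rfl⟩ := e.surjective i
    rcases k with k | k
    · rw [join_inl] at hi
      exact absurd ⟨k, hi⟩ hn
    · rw [join_inr] at hi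
      exact ⟨k, hi⟩
  · rintro ⟨k, hk⟩
    refine ⟨⟨e (Sum.inr k), by rw [join_inr, hk]⟩, ?_⟩
    rintro ⟨i, hi⟩
    have := h i k
    rw [hi, hk, sub_self, norm_zero] at this
    exact absurd this (not_lt.2 hε)

/-! ### Grand-canonical sums -/

/-- `∑_N μ^N / N! ∫_{excl} G dν^N`. -/
noncomputable def gcs (ν : Measure Ph) (ε μ : ℝ) (G : (N : ℕ) → (Fin N → Ph) → ℝ≥0∞) : ℝ≥0∞ :=
  ∑' N : ℕ, ENNReal.ofReal (aw μ N) * ∫⁻ Z in excl ε N, G N Z ∂(Measure.pi fun _ : Fin N => ν)

/-- Joint measurability of a functional of `n` marked particles and of the rest. -/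
def JMeas {n : ℕ} (F : (Fin n → Ph) → Finset Ph → ℝ≥0∞) : Prop :=
  ∀ M : ℕ, Measurable fun p : (Fin n → Ph) × (Fin M → Ph) => F p.1 (world p.2)

/-- Pairs of compatible labelled configurations. -/
def cpairs (ε : ℝ) (n M : ℕ) : Set ((Fin n → Ph) × (Fin M → Ph)) :=
  {p | p.1 ∈ excl ε n ∧ p.2 ∈ excl ε M ∧ p.2 ∈ compat ε p.1}

theorem measurableSet_cpairs (ε : ℝ) (n M : ℕ) : MeasurableSet (cpairs ε n M) :=
  (measurable_fst (measurableSet_excl ε n)).inter
    ((measurable_snd (measurableSet_excl ε M)).inter (measurableSet_compat_prod ε n M))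

open Classical in
/-- The integrand, in the coordinates of `join`. -/
theorem indicator_join {ε : ℝ} (hε : 0 ≤ ε) {n M : ℕ} (σ : Fin n ↪ Fin (M + n))
    (e : Fin n ⊕ Fin M ≃ Fin (M + n)) (he : ∀ k, e (Sum.inl k) = σ k)
    (F : (Fin n → Ph) → Finset Ph → ℝ≥0∞) (p : (Fin n → Ph) × (Fin M → Ph)) :
    (excl ε (M + n)).indicator (fun Z => F (fun k => Z (σ k))
        (world Z \ world (fun k => Z (σ k)))) (join e p.1 p.2) =
      (cpairs ε n M).indicator (fun p => F p.1 (world p.2)) p := by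
  have hz : (fun k => join e p.1 p.2 (σ k)) = p.1 := by
    funext k
    rw [← he k, join_inl]
  by_cases hp : p ∈ cpairs ε n M
  · rw [indicator_of_mem ((join_mem_excl e p.1 p.2).2 hp), indicator_of_mem hp, hz,
      world_join_sdiff e hε p.1 p.2 hp.2.2]
  · rw [indicator_of_notMem (fun h => hp ((join_mem_excl e p.1 p.2).1 h)),
      indicator_of_notMem hp]

theorem measurable_indicator_embedding {ε : ℝ} (hε : 0 ≤ ε) {n M : ℕ}
    (σ : Fin n ↪ Fin (M + n)) {F : (Fin n → Ph) → Finset Ph → ℝ≥0∞} (hF : JMeas F) :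
    open Classical in Measurable ((excl ε (M + n)).indicator
      (fun Z => F (fun k => Z (σ k)) (world Z \ world (fun k => Z (σ k))))) := by
  classical
  obtain ⟨e, he⟩ := exists_sumEquiv σ
  let Ψ : (Fin n → Ph) × (Fin M → Ph) ≃ᵐ (Fin (M + n) → Ph) :=
    (MeasurableEquiv.sumPiEquivProdPi (fun _ : Fin n ⊕ Fin M => Ph)).symm.trans
      (MeasurableEquiv.piCongrLeft (fun _ : Fin (M + n) => Ph) e)
  have hΨ : ∀ p, Ψ p = join e p.1 p.2 := by
    intro p
    funext i
    obtain ⟨k, rfl⟩ := e.surjective i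
    change (MeasurableEquiv.piCongrLeft (fun _ : Fin (M + n) => Ph) e) _ (e k) = _
    rw [MeasurableEquiv.coe_piCongrLeft]
    rw [Equiv.piCongrLeft_apply_apply (fun _ : Fin (M + n) => Ph) e]
    rcases k with k | k
    · rw [join_inl]; rfl
    · rw [join_inr]; rfl
  rw [← Ψ.measurable_comp_iff]
  have heq : (excl ε (M + n)).indicator (fun Z => F (fun k => Z (σ k))
        (world Z \ world (fun k => Z (σ k)))) ∘ Ψ =
      (cpairs ε n M).indicator (fun p => F p.1 (world p.2)) := by
    funext p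
    rw [Function.comp_apply, hΨ]
    exact indicator_join hε σ e he F p
  rw [heq]
  exact (hF M).indicator (measurableSet_cpairs ε n M)

theorem JMeas.inner {n : ℕ} {F : (Fin n → Ph) → Finset Ph → ℝ≥0∞} (hF : JMeas F)
    (ν : Measure Ph) [SigmaFinite ν] (ε : ℝ) (M : ℕ) :
    Measurable fun z : Fin n → Ph => ∫⁻ Y in excl ε M,
      (compat ε z).indicator (fun Y => F z (world Y)) Y ∂(Measure.pi fun _ : Fin M => ν) := by
  have h1 : Measurable ({p : (Fin n → Ph) × (Fin M → Ph) | p.2 ∈ compat ε p.1}.indicator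
      (fun p => F p.1 (world p.2))) := (hF M).indicator (measurableSet_compat_prod ε n M)
  exact h1.lintegral_prod_right' (ν := (Measure.pi fun _ : Fin M => ν).restrict (excl ε M))

open Classical in
/-- The canonical form of the identity, for one embedding. -/
theorem lintegral_embedding (ν : Measure Ph) [SigmaFinite ν] {ε : ℝ} (hε : 0 ≤ ε) {n M : ℕ}
    (σ : Fin n ↪ Fin (M + n)) {F : (Fin n → Ph) → Finset Ph → ℝ≥0∞} (hF : JMeas F) :
    ∫⁻ Z in excl ε (M + n), F (fun k => Z (σ k)) (world Z \ world (fun k => Z (σ k)))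
      ∂(Measure.pi fun _ : Fin (M + n) => ν) =
    ∫⁻ z in excl ε n, ∫⁻ Y in excl ε M, (compat ε z).indicator (fun Y => F z (world Y)) Y
      ∂(Measure.pi fun _ : Fin M => ν) ∂(Measure.pi fun _ : Fin n => ν) := by
  obtain ⟨e, he⟩ := exists_sumEquiv σ
  rw [← lintegral_indicator (measurableSet_excl ε (M + n)), lintegral_join ν e,
    lintegral_congr (indicator_join hε σ e he F),
    lintegral_prod _ ((hF M).indicator (measurableSet_cpairs ε n M)).aemeasurable,
    ← lintegral_indicator (measurableSet_excl ε n)]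
  refine lintegral_congr fun z => ?_
  by_cases hz' : z ∈ excl ε n
  · rw [indicator_of_mem hz', ← lintegral_indicator (measurableSet_excl ε M)]
    refine lintegral_congr fun Y => ?_
    by_cases hY : Y ∈ excl ε M
    · rw [indicator_of_mem hY]
      by_cases hc : Y ∈ compat ε z
      · rw [indicator_of_mem hc]
        exact indicator_of_mem (show (z, Y) ∈ cpairs ε n M from ⟨hz', hY, hc⟩) _
      · rw [indicator_of_notMem hc]
        exact indicator_of_notMem (fun h : (z, Y) ∈ cpairs ε n M => hc h.2.2) _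
    · rw [indicator_of_notMem hY]
      exact indicator_of_notMem (fun h : (z, Y) ∈ cpairs ε n M => hY h.2.1) _
  · rw [indicator_of_notMem hz', ← lintegral_zero (μ := Measure.pi fun _ : Fin M => ν)]
    refine lintegral_congr fun Y => ?_
    exact indicator_of_notMem (fun h : (z, Y) ∈ cpairs ε n M => hz' h.1) _

open Classical in
/-- The canonical form of the identity. -/
theorem lintegral_sum_embedding (ν : Measure Ph) [SigmaFinite ν] {ε : ℝ} (hε : 0 ≤ ε) (n M : ℕ)
    {F : (Fin n → Ph) → Finset Ph → ℝ≥0∞} (hF : JMeas F) :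
    ∫⁻ Z in excl ε (M + n), ∑ σ : Fin n ↪ Fin (M + n),
      F (fun k => Z (σ k)) (world Z \ world (fun k => Z (σ k)))
        ∂(Measure.pi fun _ : Fin (M + n) => ν) =
      ((M + n).descFactorial n : ℝ≥0∞) * ∫⁻ z in excl ε n, ∫⁻ Y in excl ε M,
        (compat ε z).indicator (fun Y => F z (world Y)) Y
          ∂(Measure.pi fun _ : Fin M => ν) ∂(Measure.pi fun _ : Fin n => ν) := by
  rw [← lintegral_indicator (measurableSet_excl ε (M + n))]
  have hind : ∀ Z : Fin (M + n) → Ph, (excl ε (M + n)).indicator (fun Z =>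
      ∑ σ : Fin n ↪ Fin (M + n), F (fun k => Z (σ k))
        (world Z \ world (fun k => Z (σ k)))) Z =
      ∑ σ : Fin n ↪ Fin (M + n), (excl ε (M + n)).indicator (fun Z => F (fun k => Z (σ k))
        (world Z \ world (fun k => Z (σ k)))) Z := by
    intro Z
    by_cases hZ : Z ∈ excl ε (M + n)
    · simp only [indicator_of_mem hZ]
    · simp only [indicator_of_notMem hZ, Finset.sum_const_zero]
  rw [lintegral_congr hind,
    lintegral_finsetSum _ fun σ _ => measurable_indicator_embedding hε σ hF]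
  have hσ : ∀ σ : Fin n ↪ Fin (M + n), ∫⁻ Z, (excl ε (M + n)).indicator
      (fun Z => F (fun k => Z (σ k)) (world Z \ world (fun k => Z (σ k)))) Z
        ∂(Measure.pi fun _ : Fin (M + n) => ν) =
      ∫⁻ z in excl ε n, ∫⁻ Y in excl ε M, (compat ε z).indicator (fun Y => F z (world Y)) Y
        ∂(Measure.pi fun _ : Fin M => ν) ∂(Measure.pi fun _ : Fin n => ν) := by
    intro σ
    rw [lintegral_indicator (measurableSet_excl ε (M + n))]
    exact lintegral_embedding ν hε σ hF
  rw [Finset.sum_congr rfl fun σ _ => hσ σ, Finset.sum_const, Finset.card_univ,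
    Fintype.card_embedding_eq, Fintype.card_fin, Fintype.card_fin, nsmul_eq_mul]

theorem tsum_drop (n : ℕ) (T : ℕ → ℝ≥0∞) (h : ∀ N < n, T N = 0) :
    ∑' N, T N = ∑' M, T (M + n) := by
  rw [← Summable.sum_add_tsum_nat_add' (f := T) (k := n) ENNReal.summable]
  rw [Finset.sum_eq_zero, zero_add]
  intro N hN
  exact h N (Finset.mem_range.1 hN)

open Classical in
/-- **GNZ identity** (unnormalized). -/
theorem gcs_sum_embedding (ν : Measure Ph) [SigmaFinite ν] {ε μ : ℝ} (hε : 0 ≤ ε) (hμ : 0 ≤ μ)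
    {n : ℕ} {F : (Fin n → Ph) → Finset Ph → ℝ≥0∞} (hF : JMeas F) :
    gcs ν ε μ (fun N Z => ∑ σ : Fin n ↪ Fin N,
      F (fun k => Z (σ k)) (world Z \ world (fun k => Z (σ k)))) =
    ENNReal.ofReal (μ ^ n) * ∫⁻ z in excl ε n,
      gcs ν ε μ (fun _ Y => (compat ε z).indicator (fun Y => F z (world Y)) Y)
        ∂(Measure.pi fun _ : Fin n => ν) := by
  have hR : ∫⁻ z in excl ε n,
      gcs ν ε μ (fun _ Y => (compat ε z).indicator (fun Y => F z (world Y)) Y)
        ∂(Measure.pi fun _ : Fin n => ν) =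
      ∑' M : ℕ, ∫⁻ z in excl ε n, ENNReal.ofReal (aw μ M) * ∫⁻ Y in excl ε M,
        (compat ε z).indicator (fun Y => F z (world Y)) Y ∂(Measure.pi fun _ : Fin M => ν)
          ∂(Measure.pi fun _ : Fin n => ν) := by
    refine lintegral_tsum (f := fun M z => ENNReal.ofReal (aw μ M) * ∫⁻ Y in excl ε M,
        (compat ε z).indicator (fun Y => F z (world Y)) Y ∂(Measure.pi fun _ : Fin M => ν))
        fun M => ?_
    exact ((hF.inner ν ε M).const_mul (ENNReal.ofReal (aw μ M))).aemeasurable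
  rw [hR, ← ENNReal.tsum_mul_left]
  unfold gcs
  rw [tsum_drop n]
  · refine tsum_congr fun M => ?_
    rw [lintegral_const_mul _ (hF.inner ν ε M), lintegral_sum_embedding ν hε n M hF,
      ← mul_assoc, ← mul_assoc]
    congr 1
    rw [← ENNReal.ofReal_mul (pow_nonneg hμ n), ← aw_shift M n,
      ENNReal.ofReal_mul (aw_nonneg hμ _), ENNReal.ofReal_natCast]
  · intro N hN
    have hemp : IsEmpty (Fin n ↪ Fin N) := by
      rw [← Fintype.card_eq_zero_iff, Fintype.card_embedding_eq, Fintype.card_fin,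
        Fintype.card_fin]
      exact Nat.descFactorial_eq_zero_iff_lt.2 hN
    simp

/-- Dropping the compatibility indicators. -/
theorem gcs_sum_embedding_le (ν : Measure Ph) [SigmaFinite ν] {ε μ : ℝ} (hε : 0 ≤ ε)
    (hμ : 0 ≤ μ) {n : ℕ} {F : (Fin n → Ph) → Finset Ph → ℝ≥0∞} (hF : JMeas F) :
    open Classical in
    gcs ν ε μ (fun N Z => ∑ σ : Fin n ↪ Fin N,
      F (fun k => Z (σ k)) (world Z \ world (fun k => Z (σ k)))) ≤
    ENNReal.ofReal (μ ^ n) * ∫⁻ z, gcs ν ε μ (fun _ Y => F z (world Y))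
        ∂(Measure.pi fun _ : Fin n => ν) := by
  rw [gcs_sum_embedding ν hε hμ hF]
  refine mul_le_mul_right (le_trans ?_ (setLIntegral_le_lintegral (excl ε n) _)) _
  refine lintegral_mono fun z => ?_
  refine ENNReal.tsum_le_tsum fun M => mul_le_mul_right (lintegral_mono fun Y => ?_) _
  exact indicator_le_self _ _ _

/-- The normalized grand-canonical expectation, in `[0, ∞]`. -/
noncomputable def gcE (f₀ : Ph → ℝ) (ε : ℝ) (G : (N : ℕ) → (Fin N → Ph) → ℝ≥0∞) : ℝ≥0∞ :=
  (gcs (law f₀) ε (mu ε) fun _ _ => 1)⁻¹ * gcs (law f₀) ε (mu ε) G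

theorem mu_nonneg (ε : ℝ) : 0 ≤ mu ε := by
  unfold mu
  positivity

open Classical in
/-- **GNZ identity** for the grand-canonical law. -/
theorem gcE_sum_embedding {f₀ : Ph → ℝ} [SigmaFinite (law f₀)] {ε : ℝ} (hε : 0 ≤ ε)
    {n : ℕ} {F : (Fin n → Ph) → Finset Ph → ℝ≥0∞} (hF : JMeas F) :
    gcE f₀ ε (fun N Z => ∑ σ : Fin n ↪ Fin N,
      F (fun k => Z (σ k)) (world Z \ world (fun k => Z (σ k)))) =
    ENNReal.ofReal (mu ε ^ n) * ∫⁻ z in excl ε n,
      gcE f₀ ε (fun _ Y => (compat ε z).indicator (fun Y => F z (world Y)) Y)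
        ∂(Measure.pi fun _ : Fin n => law f₀) := by
  unfold gcE
  rw [gcs_sum_embedding (law f₀) hε (mu_nonneg ε) hF, lintegral_const_mul]
  · ring
  · unfold gcs
    refine Measurable.tsum fun M => ?_
    exact (hF.inner (law f₀) ε M).const_mul _

end Vale.Agent.P119.GNZ
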